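import Vale.Agent.P329.H337.C2.G

/-!
# P329 / context products in all finite groups with central commutators
-/

set_option linter.all false

namespace Vale.Agent.P329.H337.C2

open Vale.Agent.P329 Vale.Agent.P329.H559 Vale.Agent.P329.H559.C2

theorem nilpotent_of_central {G : Type} [Group G]
    (hc : ∀ a b c : G, a * b * a⁻¹ * b⁻¹ * c = c * (a * b * a⁻¹ * b⁻¹)) : Group.IsNilpotent G := by
  rw [nilpotent_iff_lowerCentralSeries]
  refine ⟨2, ?_⟩
  rw [lowerCentralSeries_succ, lowerCentralSeries_one]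
  have h1 : (commutator G) ≤ Subgroup.center G := by
    rw [commutator_def, Subgroup.commutator_le]
    intro a _ b _
    rw [Subgroup.mem_center_iff]
    intro g
    exact (hc a b g).symm
  rw [eq_bot_iff, Subgroup.commutator_le]
  intro x hx y _
  rw [Subgroup.mem_bot, commutatorElement_eq_one_iff_mul_comm]
  exact (Subgroup.mem_center_iff.mp (h1 hx) y).symm

/-- **class two, all finite groups** -/
theorem cl2_all (h : Cl2Stmt)
    (h2 : ∀ (K : Type) [Group K] [Finite K], IsPGroup 2 K → H434.CtxK 1 K)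
    (G : Type) [Group G] [Finite G]
    (hc : ∀ a b c : G, a * b * a⁻¹ * b⁻¹ * c = c * (a * b * a⁻¹ * b⁻¹)) (l : ℕ) :
    H434.CtxK (2 ^ l) G := by
  have hfin : ∀ p : ℕ, Finite (Sylow p G) := fun p => inferInstance
  obtain ⟨e⟩ := (Group.isNilpotent_of_finite_tfae (G := G)).out 0 4 |>.mp
    (nilpotent_of_central hc)
  refine H434.CtxK.equiv (H434.CtxK.pi fun p => H434.CtxK.pi fun P => ?_) e
  have hp : (p : ℕ).Prime := Nat.prime_of_mem_primeFactors p.2
  haveI hf : Fact (p : ℕ).Prime := ⟨hp⟩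
  have hP : IsPGroup (p : ℕ) (P : Subgroup G) := P.isPGroup'
  rcases hp.eq_two_or_odd' with h3 | h3
  · have hP2 : IsPGroup 2 (P : Subgroup G) := fun g => by
      obtain ⟨k, hk⟩ := hP g
      exact ⟨k, by rw [← h3]; exact hk⟩
    exact H434.CtxK.clock_p h2 hP2 l
  · obtain ⟨k, hk⟩ := IsPGroup.iff_card.mp hP
    refine h (P : Subgroup G) (by rw [hk]; exact h3.pow) (fun a b c => ?_) l
    apply Subtype.ext
    exact hc a b c

end Vale.Agent.P329.H337.C2
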