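import Vale.Agent.P329.H559.C2.Defs
import Vale.Agent.P329.H433.BaerG

/-!
# P329 / context products in groups of class two and odd order, from pair sums
-/

set_option linter.all false

namespace Vale.Agent.P329.H337.C2

open Vale.Agent.P329 Vale.Agent.P329.H559 Vale.Agent.P329.H559.C2
open Vale.Agent.P329.H433 (Em Ba vE cc)

/-- finite sums of known functions -/
theorem kn_fsum {α ι B : Type} [Fintype ι] [AddCommMonoid B] [Finite B] {F : ι → List α → B}
    (h : ∀ i, Kn (F i)) : Kn fun w => ∑ i, F i w := by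
  have h1 : Kn fun w => fun i => F i w := Kn.pi h
  exact h1.comp fun t => ∑ i, t i

/-- context products in finite abelian groups of odd order -/
theorem ctx_odd_comm {H : Type} [Group H] [Finite H] (hH : ∀ a b : H, a * b = b * a)
    (ho : Odd (Nat.card H)) (l : ℕ) : H434.CtxK (2 ^ l) H := by
  letI : CommGroup H := { (inferInstance : Group H) with mul_comm := hH }
  obtain ⟨ι, hι, n, hn, ⟨e⟩⟩ := CommGroup.equiv_prod_multiplicative_zmod_of_finite H
  haveI : ∀ i, NeZero (n i) := fun i => ⟨by have := hn i; omega⟩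
  have hcard : Nat.card H = ∏ i, n i := by
    rw [Nat.card_congr e.toEquiv, Nat.card_pi]
    refine Finset.prod_congr rfl fun i _ => ?_
    rw [Nat.card_congr (Multiplicative.toAdd : Multiplicative (ZMod (n i)) ≃ ZMod (n i)),
      Nat.card_zmod]
  have hodd : ∀ i, Odd (n i) := fun i =>
    Odd.of_dvd_nat ho (hcard ▸ Finset.dvd_prod_of_mem n (Finset.mem_univ i))
  exact (H434.CtxK.pi fun i => ctxK_odd (n i) (hodd i) l).equiv e.symm

section

variable {G : Type} [Group G] {m : ℕ} (hK : ∀ x y : G, x * y * x⁻¹ * y⁻¹ ∈ Em m G)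
  {α : Type} (χ : List α → α → G)

/-- the sum of the commutators of the history -/
def Sc : List α → Additive (Em m G)
  | [] => 0
  | b :: X => Sc X + cc hK (H157.hp χ X) (χ X b)

/-- the product in the abelian group -/
def Hb (X : List α) : Ba hK := H157.hp (fun X b => (⟨χ X b⟩ : Ba hK)) X

theorem hp_eq (X : List α) :
    H157.hp χ X = (Hb hK χ X).val * vE (((m + 1) / 2) • Sc hK χ X) := by
  induction X with
  | nil =>
    show (1 : G) = (1 : Ba hK).val * vE (((m + 1) / 2) • (0 : Additive (Em m G)))
    rw [smul_zero, H433.vE_zero, mul_one]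
    rfl
  | cons b X ih =>
    have h1 : Hb hK χ (b :: X) = Hb hK χ X * ⟨χ X b⟩ := rfl
    have h2 : cc hK (H157.hp χ X) (χ X b) = cc hK (Hb hK χ X).val (χ X b) := by
      rw [ih, H433.cc_mul_left, H433.cc_vE, add_zero]
    have h3 : H157.hp χ (b :: X) = H157.hp χ X * χ X b := rfl
    have h4 : Sc hK χ (b :: X) = Sc hK χ X + cc hK (H157.hp χ X) (χ X b) := rfl
    rw [h1, h3, h4, h2, H433.ba_mul, H433.cc_swap hK (Hb hK χ X).val (χ X b)]
    conv_lhs => rw [ih]
    rw [mul_assoc ((Hb hK χ X).val), ← H433.vE_cen, mul_assoc ((Hb hK χ X).val * _),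
      ← H433.vE_add, ← mul_assoc]
    congr 2
    rw [smul_neg, nsmul_add]
    abel

variable [Fintype G]

open Classical in
/-- a coordinate of the sum of the commutators is a sum of pair sums -/
theorem phi_Sc {n : ℕ} (φ : Additive (Em m G) →+ ZMod n) (X : List α) :
    φ (Sc hK χ X) = ∑ a : G, PP (fun X b => if χ X b = a then (1 : ZMod n) else 0)
      (fun X b => φ (cc hK a (χ X b))) X := by
  have h0 : ∀ (X : List α) (y : G), φ (cc hK (H157.hp χ X) y) =
      ∑ a : G, φ (cc hK a y) * SS (fun X b => if χ X b = a then (1 : ZMod n) else 0) X := by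
    intro X y
    induction X with
    | nil =>
      have h1 : H157.hp χ ([] : List α) = 1 := rfl
      rw [h1, H433.cc_one_left, map_zero]
      symm
      refine Finset.sum_eq_zero fun a _ => ?_
      rw [SS, mul_zero]
    | cons b X ih =>
      have h1 : H157.hp χ (b :: X) = H157.hp χ X * χ X b := rfl
      rw [h1, H433.cc_mul_left, map_add, ih]
      simp only [SS, mul_add]
      rw [Finset.sum_add_distrib]
      congr 1
      rw [Finset.sum_eq_single (χ X b)]
      · rw [if_pos rfl, mul_one]
      · intro a _ ha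
        rw [if_neg (Ne.symm ha), mul_zero]
      · intro h
        exact absurd (Finset.mem_univ _) h
  induction X with
  | nil =>
    rw [Sc, map_zero]
    symm
    exact Finset.sum_eq_zero fun a _ => rfl
  | cons b X ih =>
    rw [Sc, map_add, ih, h0]
    simp only [PP]
    rw [Finset.sum_add_distrib]

end

/-- **class two from pair sums** -/
theorem cl2_of (h : PPStmt) : Cl2Stmt := by
  classical
  intro G _ _ ho hc l α _ c χ hχ S
  haveI : Fintype G := Fintype.ofFinite G
  have hK : ∀ x y : G, x * y * x⁻¹ * y⁻¹ ∈ Em (Nat.card G) G := fun x y =>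
    ⟨fun g => (hc x y g).symm, pow_card_eq_one'⟩
  -- the product in the abelian group
  have hcardB : Nat.card (Ba hK) = Nat.card G :=
    Nat.card_congr ⟨fun a => a.val, fun a => ⟨a⟩, fun a => rfl, fun a => rfl⟩
  have hB : H434.CtxK (2 ^ l) (Ba hK) :=
    ctx_odd_comm (H433.ba_comm ho) (by rw [hcardB]; exact ho) l
  have h1 : Kn fun w : List α => Hb hK χ w.reverse := by
    intro v
    exact hB α c (fun X b => (⟨χ X b⟩ : Ba hK)) (fun X Y b h1 h2 => by rw [hχ X Y b h1 h2]) {v}
  -- the sum of the commutators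
  obtain ⟨ι, hι, n, hn, ⟨e⟩⟩ :=
    CommGroup.equiv_prod_multiplicative_zmod_of_finite (Em (Nat.card G) G)
  have hn0 : ∀ i, n i ≠ 0 := fun i => by have := hn i; omega
  haveI : ∀ i, NeZero (n i) := fun i => ⟨hn0 i⟩
  let φ : ∀ i, Additive (Em (Nat.card G) G) →+ ZMod (n i) := fun i =>
    { toFun := fun x => (e (Additive.toMul x) i).toAdd
      map_zero' := by
        show (e 1 i).toAdd = 0
        rw [map_one]
        rfl
      map_add' := fun x y => by
        show (e (Additive.toMul x * Additive.toMul y) i).toAdd = _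
        rw [map_mul]
        rfl }
  have h2 : ∀ i, Kn fun w : List α => φ i (Sc hK χ w.reverse) := by
    intro i
    have h3 : Kn fun w : List α => ∑ a : G, PP (fun X b => if χ X b = a then (1 : ZMod (n i))
        else 0) (fun X b => φ i (cc hK a (χ X b))) w.reverse :=
      kn_fsum fun a => h (n i) (hn0 i) α l c _ _ fun X Y b h4 h5 => by
        rw [hχ X Y b h4 h5]
        exact ⟨rfl, rfl⟩
    refine Eq.mp (congrArg Kn ?_) h3
    funext w
    rw [phi_Sc hK χ (φ i) w.reverse]
  have h3 : Kn fun w : List α => Sc hK χ w.reverse := by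
    have h4 := (Kn.pi h2).comp fun t => Additive.ofMul (e.symm fun i => Multiplicative.ofAdd (t i))
    refine Eq.mp (congrArg Kn ?_) h4
    funext w
    have h5 : (fun i => Multiplicative.ofAdd (φ i (Sc hK χ w.reverse))) =
        e (Additive.toMul (Sc hK χ w.reverse)) := rfl
    show Additive.ofMul (e.symm fun i => Multiplicative.ofAdd (φ i (Sc hK χ w.reverse))) = _
    rw [h5, MulEquiv.symm_apply_apply]
    rfl
  have h4 := h1.comp₂ h3 fun x y => x.val * vE (((Nat.card G + 1) / 2) • y)
  have h5 := H434.kn_set h4 S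
  refine Eq.mp (congrArg (SH 1) ?_) h5
  ext w
  rw [Set.mem_ofPred_eq, Set.mem_ofPred_eq, hp_eq hK χ w.reverse]

end Vale.Agent.P329.H337.C2
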